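import Mathlib
import Vale.Agent.H33.Cluster

/-!
# P123 (Crouzeix): the conjectured constant 2 for polynomials with clustered roots

`inner ℂ x (A x)` is Mathlib's inner product, conjugate-linear in the first slot, so for
`‖x‖ = 1` it is the point `⟨A x, x⟩` of the numerical range `W(A)` in the convention of the
problem. `Polynomial.aeval A P` is the operator `P(A)`, and `P.roots` is the multiset of the
complex roots of `P`.

Let all roots of `P` lie in the closed disc `D(c, ρ)`. If `|P| ≤ M` on the numerical range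
`W(A)` and on the disc `D(c, √2 ρ)`, then the numerical radius of `P(A)` is at most `M`, hence
`‖P(A)‖ ≤ 2 M`. In particular, if `W(A)` contains the disc `D(c, √2 ρ)`, then
`‖P(A)‖ ≤ 2 sup_{W(A)} |P|`.
-/

namespace Vale.Agent.Results.P123.A_ClusteredRoots

theorem result {H : Type*} [NormedAddCommGroup H] [InnerProductSpace ℂ H] [Nontrivial H]
    (A : H →L[ℂ] H) (P : Polynomial ℂ) (c : ℂ) (ρ M : ℝ)
    (hroots : ∀ z ∈ P.roots, ‖z - c‖ ≤ ρ)
    (hD : ∀ z : ℂ, ‖z - c‖ ≤ Real.sqrt 2 * ρ → ‖P.eval z‖ ≤ M)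
    (hW : ∀ x : H, ‖x‖ = 1 → ‖P.eval (inner ℂ x (A x))‖ ≤ M) :
    (∀ x : H, ‖x‖ = 1 → ‖inner ℂ x (Polynomial.aeval A P x)‖ ≤ M) ∧
      ‖Polynomial.aeval A P‖ ≤ 2 * M :=
  Vale.Agent.H33.crouzeix_clustered A P c ρ M hroots hD hW

end Vale.Agent.Results.P123.A_ClusteredRoots
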