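import Mathlib
import Vale.Agent.H33.Main
import Vale.Agent.H33.Cluster
import Vale.Agent.H33.Quad

/-!
# P123 (Crouzeix): the constant 2 at convex lemniscate levels, with two explicit classes

`inner ℂ x (A x)` is Mathlib's inner product, conjugate-linear in the first slot, so for
`‖x‖ = 1` it is the point `⟨A x, x⟩` of the numerical range `W(A)` in the convention of the
problem. `Polynomial.aeval A P` is the operator `P(A)`.

For every bounded operator `A`: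

1. if `|P| ≤ M` on `W(A)` and the sublevel set `{z : |P z| ≤ M}` is convex, then the numerical
   radius of `P(A)` is at most `M` and `‖P(A)‖ ≤ 2 M`;
2. the same conclusion if all roots of `P` lie in a disc `D(c, ρ)` and `|P| ≤ M` on `W(A)` and
   on the disc `D(c, √2 ρ)`;
3. for `P(z) = a z^2 + b z + c`, `a ≠ 0`: if `|P| ≤ M` on `W(A)` and `M` is at least twice the
   modulus of the critical value `c - b^2/(4a)`, then `‖P(A)‖ ≤ 2 M`.
-/

namespace Vale.Agent.Results.P123.A_Combined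

theorem result {H : Type*} [NormedAddCommGroup H] [InnerProductSpace ℂ H] [Nontrivial H]
    (A : H →L[ℂ] H) :
    (∀ (P : Polynomial ℂ) (M : ℝ),
        (∀ x : H, ‖x‖ = 1 → ‖P.eval (inner ℂ x (A x))‖ ≤ M) →
        Convex ℝ {z : ℂ | ‖P.eval z‖ ≤ M} →
        (∀ x : H, ‖x‖ = 1 → ‖inner ℂ x (Polynomial.aeval A P x)‖ ≤ M) ∧
          ‖Polynomial.aeval A P‖ ≤ 2 * M) ∧
    (∀ (P : Polynomial ℂ) (c : ℂ) (ρ M : ℝ),
        (∀ z ∈ P.roots, ‖z - c‖ ≤ ρ) →
        (∀ z : ℂ, ‖z - c‖ ≤ Real.sqrt 2 * ρ → ‖P.eval z‖ ≤ M) →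
        (∀ x : H, ‖x‖ = 1 → ‖P.eval (inner ℂ x (A x))‖ ≤ M) →
        (∀ x : H, ‖x‖ = 1 → ‖inner ℂ x (Polynomial.aeval A P x)‖ ≤ M) ∧
          ‖Polynomial.aeval A P‖ ≤ 2 * M) ∧
    (∀ (a b c : ℂ) (M : ℝ), a ≠ 0 →
        (∀ x : H, ‖x‖ = 1 →
          ‖a * (inner ℂ x (A x)) ^ 2 + b * inner ℂ x (A x) + c‖ ≤ M) →
        2 * ‖c - b ^ 2 / (4 * a)‖ ≤ M →
        ‖a • (A * A) + b • A + c • (1 : H →L[ℂ] H)‖ ≤ 2 * M) :=
  ⟨fun P M hW hconv => Vale.Agent.H33.crouzeix_convex_level A P M hconv hW,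
    fun P c ρ M hroots hD hW => Vale.Agent.H33.crouzeix_clustered A P c ρ M hroots hD hW,
    fun a b c M ha hW hM => Vale.Agent.H33.crouzeix_quadratic A a b c ha M hW hM⟩

end Vale.Agent.Results.P123.A_Combined
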