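import Mathlib
import Vale.Agent.H33.Main

/-!
# P123 (Crouzeix): the conjectured constant 2 at convex lemniscate levels

`inner ℂ x (A x)` is Mathlib's inner product, conjugate-linear in the first slot, so for
`‖x‖ = 1` it is the point `⟨A x, x⟩` of the numerical range `W(A)` in the convention of the
problem. `Polynomial.aeval A P` is the operator `P(A)`.

If `|P| ≤ M` on `W(A)` and the sublevel set `{z : |P z| ≤ M}` is convex, then the numerical
radius of `P(A)` is at most `M`, hence `‖P(A)‖ ≤ 2 M`.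
-/

namespace Vale.Agent.Results.P123.A_ConvexLemniscate

theorem result {H : Type*} [NormedAddCommGroup H] [InnerProductSpace ℂ H] [Nontrivial H]
    (A : H →L[ℂ] H) (P : Polynomial ℂ) (M : ℝ)
    (hW : ∀ x : H, ‖x‖ = 1 → ‖P.eval (inner ℂ x (A x))‖ ≤ M)
    (hconv : Convex ℝ {z : ℂ | ‖P.eval z‖ ≤ M}) :
    (∀ x : H, ‖x‖ = 1 → ‖inner ℂ x (Polynomial.aeval A P x)‖ ≤ M) ∧
      ‖Polynomial.aeval A P‖ ≤ 2 * M :=
  Vale.Agent.H33.crouzeix_convex_level A P M hconv hW

end Vale.Agent.Results.P123.A_ConvexLemniscate
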