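import Mathlib
import Vale.Agent.H33.Quad

/-!
# P123 (Crouzeix): quadratic polynomials above twice the critical value

For `P(z) = a z^2 + b z + c` with `a ≠ 0` the critical point is `-b/(2a)` and the critical
value is `c - b^2/(4a)`. `inner ℂ x (A x)` with `‖x‖ = 1` is the point `⟨A x, x⟩` of the
numerical range `W(A)` (Mathlib's inner product is conjugate-linear in the first slot), and
`a • (A * A) + b • A + c • 1` is the operator `P(A)`.
-/

namespace Vale.Agent.Results.P123.B_Quadratic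

theorem result {H : Type*} [NormedAddCommGroup H] [InnerProductSpace ℂ H] [Nontrivial H]
    (A : H →L[ℂ] H) (a b c : ℂ) (ha : a ≠ 0) (M : ℝ)
    (hW : ∀ x : H, ‖x‖ = 1 →
      ‖a * (inner ℂ x (A x)) ^ 2 + b * inner ℂ x (A x) + c‖ ≤ M)
    (hM : 2 * ‖c - b ^ 2 / (4 * a)‖ ≤ M) :
    ‖a • (A * A) + b • A + c • (1 : H →L[ℂ] H)‖ ≤ 2 * M :=
  Vale.Agent.H33.crouzeix_quadratic A a b c ha M hW hM

end Vale.Agent.Results.P123.B_Quadratic
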